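import Vale.Agent.P249.H982.Chain
import Mathlib.Analysis.MeanInequalities
import Mathlib.Algebra.BigOperators.Pi

/-! # P249: the complex smoothing inequality (b), core form

`Λ w` is, for every coordinate `w` of the target, a linear functional on the functions on the cube
(in the application `Λ w f = T_{c(w)} f w`, where `c(w)` is the cell of the location `P w`). -/

namespace P249H982

open Complex Finset

variable {ι W : Type*} [Fintype ι] [DecidableEq ι] [Fintype W]

/-- the test function `∏_{i ∈ S} g (σ i x i)`, `g 1 = 1`, `g (-1) = w`. -/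
noncomputable def gtest (S : Finset ι) (w : ℂ) (σ x : ι → Bool) : ℂ :=
  ∏ i ∈ S, (if x i = σ i then 1 else w)

/-- the dual number `|w|^(p-2) conj w`. -/
noncomputable def jw (p : ℝ) (w : ℂ) : ℂ := ((‖w‖ ^ (p - 2) : ℝ) : ℂ) * (starRingEnd ℂ) w

lemma mul_jw {p : ℝ} (hp : 1 < p) (w : ℂ) : w * jw p w = ((‖w‖ ^ p : ℝ) : ℂ) := by
  unfold jw
  by_cases hw : w = 0
  · rw [hw]
    simp only [norm_zero, zero_mul]
    rw [Real.zero_rpow (by linarith)]
    simp
  · have hn : 0 < ‖w‖ := norm_pos_iff.mpr hw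
    have h1 : w * (((‖w‖ ^ (p - 2) : ℝ) : ℂ) * (starRingEnd ℂ) w)
        = ((‖w‖ ^ (p - 2) : ℝ) : ℂ) * (w * (starRingEnd ℂ) w) := by ring
    rw [h1, Complex.mul_conj, Complex.normSq_eq_norm_sq, ← Complex.ofReal_mul]
    congr 1
    rw [← Real.rpow_natCast ‖w‖ 2, ← Real.rpow_add hn]
    congr 1
    push_cast
    ring

lemma norm_jw_rpow {p q : ℝ} (hpq : p.HolderConjugate q) (w : ℂ) :
    ‖jw p w‖ ^ q = ‖w‖ ^ p := by
  have hp : 1 < p := hpq.lt
  have hq : 0 < q := hpq.symm.pos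
  unfold jw
  rw [norm_mul, Complex.norm_real, Real.norm_eq_abs, Complex.norm_conj,
    abs_of_nonneg (Real.rpow_nonneg (norm_nonneg _) _)]
  by_cases hw : w = 0
  · rw [hw, norm_zero, mul_zero, Real.zero_rpow hq.ne', Real.zero_rpow (by linarith)]
  · have hn : 0 < ‖w‖ := norm_pos_iff.mpr hw
    have h1 : ‖w‖ ^ (p - 2) * ‖w‖ = ‖w‖ ^ (p - 1) := by
      nth_rw 2 [← Real.rpow_one ‖w‖]
      rw [← Real.rpow_add hn]
      congr 1
      ring
    rw [h1, ← Real.rpow_mul hn.le]
    congr 1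
    exact hpq.sub_one_mul_conj

/-- average over all sign patterns -/
noncomputable def avg (f : (ι → Bool) → ℂ) : ℂ := (∑ σ, f σ) / 2 ^ (Fintype.card ι)

lemma avg_prod (S : Finset ι) (h : ι → Bool → ℂ) :
    (∑ σ : ι → Bool, ∏ i ∈ S, h i (σ i)) / 2 ^ (Fintype.card ι)
      = ∏ i ∈ S, ((h i true + h i false) / 2) := by
  have h1 : ∀ σ : ι → Bool, ∏ i ∈ S, h i (σ i) = ∏ i, (if i ∈ S then h i (σ i) else 1) := by
    intro σ
    rw [Finset.prod_ite_mem, Finset.univ_inter]
  simp only [h1]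
  have h2 := (Finset.prod_univ_sum (fun _ : ι => (Finset.univ : Finset Bool))
    (fun i b => if i ∈ S then h i b else (1 : ℂ)))
  rw [Fintype.piFinset_univ] at h2
  rw [← h2]
  have h3 : (2 : ℂ) ^ (Fintype.card ι) = ∏ _i : ι, (2 : ℂ) := by
    rw [Finset.prod_const, Finset.card_univ]
  rw [h3, ← Finset.prod_div_distrib]
  have h4 : ∏ i ∈ S, ((h i true + h i false) / 2)
      = ∏ i, (if i ∈ S then (h i true + h i false) / 2 else 1) := by
    rw [Finset.prod_ite_mem, Finset.univ_inter]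
  rw [h4]
  apply Finset.prod_congr rfl
  intro i _
  by_cases hi : i ∈ S
  · simp [hi]
  · simp [hi]

lemma kernel_identity {p : ℝ} (hp : 1 < p) (S : Finset ι) (w : ℂ) (x P : ι → Bool) :
    (∑ σ : ι → Bool, gtest S w σ x * gtest S (jw p w) σ P) / 2 ^ (Fintype.card ι)
      = (((1 + ‖w‖ ^ p) / 2 : ℝ) : ℂ) ^ S.card *
        ∑ R ∈ S.powerset, (zz p w) ^ R.card * (1 - zz p w) ^ (S.card - R.card) *
          (if ∀ i ∈ R, x i = P i then 1 else 0) := by
  set A : ℂ := (((1 + ‖w‖ ^ p) / 2 : ℝ) : ℂ) with hA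
  have hApos : 0 < (1 + ‖w‖ ^ p) / 2 := by positivity
  have hA0 : A ≠ 0 := by
    rw [hA]
    exact_mod_cast hApos.ne'
  have h1 : ∀ σ : ι → Bool, gtest S w σ x * gtest S (jw p w) σ P
      = ∏ i ∈ S, ((if x i = σ i then 1 else w) * (if P i = σ i then 1 else jw p w)) := by
    intro σ
    unfold gtest
    rw [← Finset.prod_mul_distrib]
  simp only [h1]
  rw [avg_prod S (fun i b => (if x i = b then 1 else w) * (if P i = b then 1 else jw p w))]
  have hzz : zz p w = 1 - ((w + jw p w) / 2) / A := by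
    unfold zz
    rw [hA]
    congr 1
    unfold jw
    push_cast
    have : ((1 + (((‖w‖ ^ p : ℝ) : ℂ)))) ≠ 0 := by
      have h2 : (1 : ℝ) + ‖w‖ ^ p ≠ 0 := by positivity
      exact_mod_cast h2
    field_simp
  have h2 : ∀ i ∈ S, ((if x i = true then (1 : ℂ) else w) * (if P i = true then 1 else jw p w)
      + (if x i = false then 1 else w) * (if P i = false then 1 else jw p w)) / 2
      = A * (zz p w * (if x i = P i then 1 else 0) + (1 - zz p w)) := by
    intro i _
    have hm := mul_jw hp w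
    by_cases hxP : x i = P i
    · rw [hxP]
      cases hPi : P i
      · simp only [Bool.false_eq_true, if_false, if_true]
        rw [hm, hA]
        push_cast
        ring
      · simp only [Bool.true_eq_false, if_false, if_true]
        rw [hm, hA]
        push_cast
        ring
    · rw [if_neg hxP, hzz]
      have hx : x i = !(P i) := by
        revert hxP
        cases x i <;> cases P i <;> simp
      rw [hx]
      cases hPi : P i
      · simp
        field_simp
        ring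
      · simp
        field_simp
  rw [Finset.prod_congr rfl h2, Finset.prod_mul_distrib, Finset.prod_const, Finset.prod_add]
  congr 1
  apply Finset.sum_congr rfl
  intro R hR
  have hRS := Finset.mem_powerset.mp hR
  rw [Finset.prod_mul_distrib, Finset.prod_const, Finset.prod_const, Finset.card_sdiff_of_subset hRS]
  have h3 : ∏ i ∈ R, (if x i = P i then (1 : ℂ) else 0) = if ∀ i ∈ R, x i = P i then 1 else 0 := by
    by_cases hall : ∀ i ∈ R, x i = P i
    · rw [if_pos hall]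
      exact Finset.prod_eq_one (fun i hi => by simp [hall i hi])
    · rw [if_neg hall]
      have hall' : ∃ i ∈ R, x i ≠ P i := by
        by_contra hcon
        exact hall (fun i hi => by_contra (fun hne => hcon ⟨i, hi, hne⟩))
      obtain ⟨i, hi, hne⟩ := hall'
      exact Finset.prod_eq_zero hi (by simp [hne])
  rw [h3]
  ring

lemma holder_complex {κ : Type*} (s : Finset κ) {p q : ℝ} (hpq : p.HolderConjugate q)
    (f g : κ → ℂ) :
    ‖∑ i ∈ s, f i * g i‖ ≤ (∑ i ∈ s, ‖f i‖ ^ p) ^ (1 / p) * (∑ i ∈ s, ‖g i‖ ^ q) ^ (1 / q) := by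
  calc ‖∑ i ∈ s, f i * g i‖ ≤ ∑ i ∈ s, ‖f i * g i‖ := norm_sum_le _ _
    _ = ∑ i ∈ s, ‖f i‖ * ‖g i‖ := by simp only [norm_mul]
    _ ≤ (∑ i ∈ s, |‖f i‖| ^ p) ^ (1 / p) * (∑ i ∈ s, |‖g i‖| ^ q) ^ (1 / q) :=
        Real.inner_le_Lp_mul_Lq s _ _ hpq
    _ = _ := by simp only [abs_norm]

lemma sum_gtest_rpow (S : Finset ι) (w : ℂ) (x : ι → Bool) (e : ℝ) :
    (∑ σ : ι → Bool, ‖gtest S w σ x‖ ^ e) / 2 ^ (Fintype.card ι)
      = ((1 + ‖w‖ ^ e) / 2) ^ S.card := by
  have h1 : ∀ σ : ι → Bool, (((‖gtest S w σ x‖ ^ e : ℝ)) : ℂ)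
      = ∏ i ∈ S, (if x i = σ i then 1 else (((‖w‖ ^ e : ℝ)) : ℂ)) := by
    intro σ
    unfold gtest
    rw [norm_prod, ← Real.finsetProd_rpow _ _ (fun i _ => norm_nonneg _), Complex.ofReal_prod]
    apply Finset.prod_congr rfl
    intro i _
    by_cases h : x i = σ i
    · simp [h]
    · simp [h]
  have h2 := avg_prod S (fun i b => (if x i = b then (1 : ℂ) else (((‖w‖ ^ e : ℝ)) : ℂ)))
  have h3 : (((∑ σ : ι → Bool, ‖gtest S w σ x‖ ^ e) / 2 ^ (Fintype.card ι) : ℝ) : ℂ)
      = ((((1 + ‖w‖ ^ e) / 2) ^ S.card : ℝ) : ℂ) := by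
    push_cast
    have h4 : (∑ σ : ι → Bool, (((‖gtest S w σ x‖ ^ e : ℝ)) : ℂ))
        = ∑ σ : ι → Bool, ∏ i ∈ S, (if x i = σ i then 1 else (((‖w‖ ^ e : ℝ)) : ℂ)) :=
      Finset.sum_congr rfl (fun σ _ => h1 σ)
    rw [h4, h2]
    rw [← Finset.prod_const]
    apply Finset.prod_congr rfl
    intro i _
    cases x i
    · simp
      ring
    · simp
  exact_mod_cast h3

/-- **(b), core form.** -/
theorem b_core {p q : ℝ} (hpq : p.HolderConjugate q) (S : Finset ι) (P : W → ι → Bool)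
    (Λ : W → ((ι → Bool) → ℂ) →ₗ[ℂ] ℂ) (χ : (ι → Bool) → ℂ) (ψ : W → ℂ) (w : ℂ) {K : ℝ}
    (hK : 0 ≤ K)
    (hΛ : (∑ σ : ι → Bool, ∑ v, ‖Λ v (fun x => χ x * gtest S w σ x)‖ ^ p) / 2 ^ (Fintype.card ι)
      ≤ K ^ p * ((1 + ‖w‖ ^ p) / 2) ^ S.card) :
    ‖∑ R ∈ S.powerset, (zz p w) ^ R.card * (1 - zz p w) ^ (S.card - R.card) *
        ∑ v, ψ v * Λ v (fun x => χ x * (if ∀ i ∈ R, x i = P v i then 1 else 0))‖
      ≤ K * (∑ v, ‖ψ v‖ ^ q) ^ (1 / q) := by
  have hp : 1 < p := hpq.lt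
  have hp0 : 0 < p := hpq.pos
  have hq0 : 0 < q := hpq.symm.pos
  set A : ℝ := (1 + ‖w‖ ^ p) / 2 with hA
  have hApos : 0 < A := by positivity
  set N : ℝ := 2 ^ (Fintype.card ι) with hN
  have hNpos : 0 < N := by positivity
  -- the left side as an average over sign patterns
  have hid : ∑ R ∈ S.powerset, (zz p w) ^ R.card * (1 - zz p w) ^ (S.card - R.card) *
        ∑ v, ψ v * Λ v (fun x => χ x * (if ∀ i ∈ R, x i = P v i then 1 else 0))
      = (∑ σv : (ι → Bool) × W, Λ σv.2 (fun x => χ x * gtest S w σv.1 x) *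
          (ψ σv.2 * gtest S (jw p w) σv.1 (P σv.2))) / ((N : ℂ) * (A : ℂ) ^ S.card) := by
    rw [Fintype.sum_prod_type, Finset.sum_comm]
    simp only [Finset.mul_sum]
    rw [Finset.sum_comm, Finset.sum_div]
    apply Finset.sum_congr rfl
    intro v _
    have hNC : (N : ℂ) ≠ 0 := by exact_mod_cast hNpos.ne'
    have hAC : (A : ℂ) ^ S.card ≠ 0 := by
      apply pow_ne_zero
      exact_mod_cast hApos.ne'
    rw [eq_div_iff (mul_ne_zero hNC hAC)]
    have e1 : ∀ σ : ι → Bool, Λ v (fun x => χ x * gtest S w σ x) *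
        (ψ v * gtest S (jw p w) σ (P v))
        = ψ v * Λ v (fun x => χ x * (gtest S w σ x * gtest S (jw p w) σ (P v))) := by
      intro σ
      have : (fun x => χ x * (gtest S w σ x * gtest S (jw p w) σ (P v)))
          = (gtest S (jw p w) σ (P v)) • (fun x => χ x * gtest S w σ x) := by
        funext x
        simp only [Pi.smul_apply, smul_eq_mul]
        ring
      rw [this, map_smul, smul_eq_mul]
      ring
    simp only [e1]
    rw [← Finset.mul_sum, ← map_sum]
    have e2 : (∑ σ : ι → Bool, fun x => χ x * (gtest S w σ x * gtest S (jw p w) σ (P v)))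
        = ((N : ℂ) * (A : ℂ) ^ S.card) • ∑ R ∈ S.powerset,
          ((zz p w) ^ R.card * (1 - zz p w) ^ (S.card - R.card)) •
            (fun x => χ x * (if ∀ i ∈ R, x i = P v i then (1 : ℂ) else 0)) := by
      funext x
      simp only [Finset.sum_apply, Pi.smul_apply, smul_eq_mul]
      rw [← Finset.mul_sum]
      have hk := kernel_identity hp S w x (P v)
      rw [div_eq_iff (pow_ne_zero _ two_ne_zero)] at hk
      rw [hk, hN, hA]
      push_cast
      rw [Finset.mul_sum, Finset.sum_mul, Finset.mul_sum, Finset.mul_sum]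
      apply Finset.sum_congr rfl
      intro R _
      ring
    rw [e2, map_smul, map_sum]
    simp only [map_smul, smul_eq_mul]
    rw [Finset.mul_sum, Finset.mul_sum, Finset.sum_mul]
    apply Finset.sum_congr rfl
    intro R _
    ring
  rw [hid, norm_div]
  have hden : ‖(N : ℂ) * (A : ℂ) ^ S.card‖ = N * A ^ S.card := by
    rw [norm_mul, norm_pow, Complex.norm_real, Complex.norm_real, Real.norm_eq_abs,
      Real.norm_eq_abs, abs_of_pos hNpos, abs_of_pos hApos]
  rw [hden, div_le_iff₀ (by positivity)]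
  have hH := holder_complex (Finset.univ : Finset ((ι → Bool) × W)) hpq
    (fun σv => Λ σv.2 (fun x => χ x * gtest S w σv.1 x))
    (fun σv => ψ σv.2 * gtest S (jw p w) σv.1 (P σv.2))
  refine hH.trans ?_
  -- first factor
  have hf1 : (∑ σv : (ι → Bool) × W, ‖Λ σv.2 (fun x => χ x * gtest S w σv.1 x)‖ ^ p)
      ≤ K ^ p * A ^ S.card * N := by
    rw [Fintype.sum_prod_type]
    rwa [div_le_iff₀ hNpos] at hΛ
  have hf2 : (∑ σv : (ι → Bool) × W, ‖ψ σv.2 * gtest S (jw p w) σv.1 (P σv.2)‖ ^ q)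
      = (∑ v, ‖ψ v‖ ^ q) * (A ^ S.card * N) := by
    rw [Fintype.sum_prod_type, Finset.sum_comm, Finset.sum_mul]
    apply Finset.sum_congr rfl
    intro v _
    have := sum_gtest_rpow S (jw p w) (P v) q
    rw [norm_jw_rpow hpq, div_eq_iff (by positivity)] at this
    rw [← this, Finset.mul_sum]
    apply Finset.sum_congr rfl
    intro σ _
    rw [norm_mul, Real.mul_rpow (norm_nonneg _) (norm_nonneg _)]
  rw [hf2]
  have hψ : 0 ≤ ∑ v, ‖ψ v‖ ^ q := Finset.sum_nonneg (fun v _ => by positivity)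
  have hAN : 0 < A ^ S.card * N := by positivity
  calc (∑ σv : (ι → Bool) × W, ‖Λ σv.2 (fun x => χ x * gtest S w σv.1 x)‖ ^ p) ^ (1 / p)
        * ((∑ v, ‖ψ v‖ ^ q) * (A ^ S.card * N)) ^ (1 / q)
      ≤ (K ^ p * A ^ S.card * N) ^ (1 / p) * ((∑ v, ‖ψ v‖ ^ q) * (A ^ S.card * N)) ^ (1 / q) := by
        gcongr
    _ = K * (∑ v, ‖ψ v‖ ^ q) ^ (1 / q) * ((A ^ S.card * N) ^ (1 / p) *
          (A ^ S.card * N) ^ (1 / q)) := by
        rw [mul_assoc (K ^ p), Real.mul_rpow (by positivity) hAN.le,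
          Real.mul_rpow hψ hAN.le, ← Real.rpow_mul hK, mul_one_div_cancel hp0.ne', Real.rpow_one]
        ring
    _ = K * (∑ v, ‖ψ v‖ ^ q) ^ (1 / q) * (N * A ^ S.card) := by
        rw [← Real.rpow_add hAN]
        have : 1 / p + 1 / q = 1 := by
          have := hpq.inv_add_inv_eq_one
          simpa [one_div] using this
        rw [this, Real.rpow_one]
        ring

end P249H982
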