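import Mathlib.Analysis.Complex.Hadamard
import Mathlib.Analysis.SpecialFunctions.Trigonometric.Inverse
import Mathlib.Analysis.SpecialFunctions.Complex.LogDeriv
import Mathlib.Analysis.SpecialFunctions.Trigonometric.DerivHyp
import Mathlib.Data.Nat.Choose.Sum

/-! # P249: the chain lemma (two constants along a thin ellipse, and binomial smoothing) -/

namespace P249H982

open Complex Finset

/-- the curve of complex smoothing parameters. -/
noncomputable def zz (p : ℝ) (w : ℂ) : ℂ :=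
  1 - (w + ((‖w‖ ^ (p - 2) : ℝ) : ℂ) * (starRingEnd ℂ) w) / ((1 + ‖w‖ ^ p : ℝ) : ℂ)

lemma zz_curve {p : ℝ} (hp2 : p ≠ 2) (y φ : ℝ) :
    zz p (Complex.exp (((2 * y / (2 - p) : ℝ) : ℂ) + φ * I))
      = 1 - Complex.cosh ((y : ℂ) + φ * I) / Complex.cosh ((p * y / (2 - p) : ℝ) : ℂ) := by
  have h2 : (2 - p) ≠ 0 := fun h => hp2 (by linarith)
  set a : ℝ := p * y / (2 - p) with ha
  have hay : 2 * y / (2 - p) = a + y := by
    rw [ha]; field_simp; ring
  have hnorm : ‖Complex.exp (((2 * y / (2 - p) : ℝ) : ℂ) + φ * I)‖ = Real.exp (a + y) := by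
    rw [Complex.norm_exp, hay]
    simp
  have h1 : (Real.exp (a + y)) ^ (p - 2) = Real.exp (-2 * y) := by
    rw [← Real.exp_mul]
    congr 1
    rw [← hay]
    field_simp
    ring
  have h3 : (Real.exp (a + y)) ^ p = Real.exp (2 * a) := by
    rw [← Real.exp_mul]
    congr 1
    rw [← hay, ha]
    field_simp
  have hconj : (starRingEnd ℂ) (Complex.exp (((2 * y / (2 - p) : ℝ) : ℂ) + φ * I))
      = Complex.exp ((a + y : ℝ) - φ * I) := by
    rw [← Complex.exp_conj, hay]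
    congr 1
    simp [Complex.ext_iff]
  unfold zz
  rw [hnorm, h1, h3, hconj, hay]
  have hden : ((1 + Real.exp (2 * a) : ℝ) : ℂ) = Complex.exp a * (2 * Complex.cosh (a : ℂ)) := by
    rw [Complex.two_cosh, mul_add, ← Complex.exp_add, ← Complex.exp_add]
    push_cast
    rw [add_neg_cancel, Complex.exp_zero, add_comm]
    congr 2
    ring
  have hnum : Complex.exp (((a + y : ℝ) : ℂ) + φ * I)
      + ((Real.exp (-2 * y) : ℝ) : ℂ) * Complex.exp ((a + y : ℝ) - φ * I)
      = Complex.exp a * (2 * Complex.cosh ((y : ℂ) + φ * I)) := by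
    rw [Complex.two_cosh, mul_add, ← Complex.exp_add, ← Complex.exp_add]
    push_cast
    rw [← Complex.exp_add]
    congr 2 <;> ring
  rw [hden, hnum, mul_div_mul_left _ _ (Complex.exp_ne_zero _),
    mul_div_mul_left _ _ (by norm_num)]

lemma norm_cosh_le (z : ℂ) : ‖Complex.cosh z‖ ≤ Real.cosh z.re := by
  have h : Complex.cosh z = (Complex.exp z + Complex.exp (-z)) / 2 := rfl
  rw [h, norm_div, Real.cosh_eq]
  have h2 : ‖(2 : ℂ)‖ = 2 := by norm_num
  rw [h2]
  gcongr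
  calc ‖Complex.exp z + Complex.exp (-z)‖ ≤ ‖Complex.exp z‖ + ‖Complex.exp (-z)‖ := norm_add_le _ _
    _ = Real.exp z.re + Real.exp (-z.re) := by
        rw [Complex.norm_exp, Complex.norm_exp, Complex.neg_re]

/-- the strip bound -/
lemma strip_bound {c y0 : ℝ} (hc : 0 < c) (hy : 0 < y0) {Q : ℂ → ℂ} (hQ : Differentiable ℂ Q)
    {M : ℝ} (hM : 0 < M) (hb : ∀ φ : ℝ, ‖Q (1 - c * Complex.cosh ((y0 : ℂ) + φ * I))‖ ≤ M)
    (ξ : ℂ) (hξ : |ξ.re| ≤ y0) : ‖Q (1 - c * Complex.cosh ξ)‖ ≤ M := by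
  have hul : -y0 < y0 := by linarith
  have hz : ξ ∈ HadamardThreeLines.verticalClosedStrip (-y0) y0 := by
    rw [abs_le] at hξ
    exact ⟨hξ.1, hξ.2⟩
  have hdiff : Differentiable ℂ (fun ξ : ℂ => Q (1 - c * Complex.cosh ξ)) := by
    exact hQ.comp ((differentiable_const _).sub
      ((differentiable_const _).mul Complex.differentiable_cosh))
  have hright : ∀ z ∈ Complex.re ⁻¹' {y0}, ‖Q (1 - c * Complex.cosh z)‖ ≤ M := by
    intro z hz
    have hz' : z.re = y0 := hz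
    have := hb z.im
    rw [← hz', Complex.re_add_im] at this
    exact this
  have hleft : ∀ z ∈ Complex.re ⁻¹' {-y0}, ‖Q (1 - c * Complex.cosh z)‖ ≤ M := by
    intro z hz
    have hz' : z.re = -y0 := hz
    have := hright (-z) (by simp [hz'])
    rwa [Complex.cosh_neg] at this
  obtain ⟨B, hB⟩ := (isCompact_closedBall (1 : ℂ) (c * Real.cosh y0)).exists_bound_of_continuousOn
    hQ.continuous.continuousOn
  have hbdd : BddAbove ((norm ∘ fun ξ : ℂ => Q (1 - c * Complex.cosh ξ)) ''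
      HadamardThreeLines.verticalClosedStrip (-y0) y0) := by
    refine ⟨B, ?_⟩
    rintro _ ⟨z, hz, rfl⟩
    apply hB
    rw [mem_closedBall_iff_norm]
    have : (1 - (c : ℂ) * Complex.cosh z) - 1 = -(c * Complex.cosh z) := by ring
    rw [this, norm_neg, norm_mul, Complex.norm_real, Real.norm_eq_abs, abs_of_pos hc]
    gcongr
    refine (norm_cosh_le z).trans ?_
    rw [Real.cosh_le_cosh, abs_of_pos hy, abs_le]
    exact hz
  have := HadamardThreeLines.norm_le_interp_of_mem_verticalClosedStrip' hul hz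
    hdiff.diffContOnCl hbdd hleft hright
  rw [← Real.rpow_add hM] at this
  simpa using this

lemma re_pos_of_norm_lt {w : ℂ} (hw : ‖w‖ < 1) : 0 < ((1 + w) / (1 - w)).re := by
  have hne : (1 - w) ≠ 0 := by
    intro h
    have : w = 1 := by linear_combination -h
    rw [this] at hw
    simp at hw
  have h1 : ((1 + w) / (1 - w)).re = (1 - ‖w‖ ^ 2) / Complex.normSq (1 - w) := by
    rw [Complex.div_re, ← add_div]
    congr 1
    rw [← Complex.normSq_eq_norm_sq, Complex.normSq_apply]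
    simp
    ring
  rw [h1]
  apply div_pos
  · nlinarith [norm_nonneg w]
  · exact Complex.normSq_pos.mpr hne

/-- the conformal parameter -/
noncomputable def xi (y0 : ℝ) (w : ℂ) : ℂ :=
  (Real.pi / 2 : ℝ) * I - ((2 * y0 / Real.pi : ℝ) : ℂ) * I * Complex.log ((1 + w) / (1 - w))

lemma xi_re (y0 : ℝ) (w : ℂ) :
    (xi y0 w).re = (2 * y0 / Real.pi) * (Complex.arg ((1 + w) / (1 - w))) := by
  unfold xi
  rw [Complex.sub_re, mul_assoc, Complex.re_ofReal_mul, Complex.re_ofReal_mul]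
  simp [Complex.log_im]

lemma xi_re_le {y0 : ℝ} (hy : 0 < y0) {w : ℂ} (hw : ‖w‖ < 1) : |(xi y0 w).re| ≤ y0 := by
  rw [xi_re, abs_mul]
  have h := Complex.abs_arg_lt_pi_div_two_iff.mpr (Or.inl (re_pos_of_norm_lt hw))
  have hpi := Real.pi_pos
  rw [abs_of_pos (by positivity)]
  calc 2 * y0 / Real.pi * |((1 + w) / (1 - w)).arg| ≤ 2 * y0 / Real.pi * (Real.pi / 2) := by
        gcongr
    _ = y0 := by field_simp

lemma xi_differentiableAt {y0 : ℝ} {w : ℂ} (hw : ‖w‖ < 1) : DifferentiableAt ℂ (xi y0) w := by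
  have hne : (1 - w) ≠ 0 := by
    intro h
    have : w = 1 := by linear_combination -h
    rw [this] at hw
    simp at hw
  unfold xi
  apply DifferentiableAt.sub
  · fun_prop
  · apply DifferentiableAt.const_mul
    apply DifferentiableAt.clog
    · apply DifferentiableAt.div
      · fun_prop
      · fun_prop
      · exact hne
    · exact Or.inl (re_pos_of_norm_lt hw)

/-- two constants on the thin ellipse -/
theorem two_const {c y0 δ k : ℝ} (hc : 0 < c) (hy : 0 < y0) (hδ0 : 1 - δ < c) (hδ1 : δ < 1)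
    (hk : 0 < k) : ∃ h : ℝ, 0 < h ∧ h ≤ 1 ∧ ∀ Q : ℂ → ℂ, Differentiable ℂ Q → ∀ M ε : ℝ, 0 < M →
      (∀ φ : ℝ, ‖Q (1 - c * Complex.cosh ((y0 : ℂ) + φ * I))‖ ≤ M) →
      (∀ z : ℂ, ‖z - 1‖ ≤ k → ‖Q z‖ ≤ ε) → ‖Q δ‖ ≤ ε ^ h * M ^ (1 - h) := by
  have hpi := Real.pi_pos
  -- the small disc
  have hcont : ContinuousAt (fun w : ℂ => (c : ℂ) * Complex.cosh (xi y0 w)) 0 := by
    have h1 : ContinuousAt (xi y0) 0 :=
      (xi_differentiableAt (by simp : ‖(0 : ℂ)‖ < 1)).continuousAt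
    have h2 : ContinuousAt Complex.cosh (xi y0 0) := Complex.continuous_cosh.continuousAt
    exact continuousAt_const.mul (h2.comp h1)
  have h00 : (c : ℂ) * Complex.cosh (xi y0 0) = 0 := by
    have : xi y0 0 = (Real.pi / 2 : ℝ) * I := by simp [xi]
    rw [this, Complex.cosh_mul_I, ← Complex.ofReal_cos, Real.cos_pi_div_two]
    simp
  have hsmall : ∃ r > 0, ∀ w : ℂ, ‖w‖ ≤ r → ‖(c : ℂ) * Complex.cosh (xi y0 w)‖ ≤ k := by
    rw [Metric.continuousAt_iff] at hcont
    obtain ⟨d, hd, hd2⟩ := hcont k hk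
    refine ⟨d / 2, by linarith, fun w hw => ?_⟩
    have := hd2 (x := w) (by rw [dist_zero_right]; linarith)
    rw [h00, dist_zero_right] at this
    exact this.le
  obtain ⟨r0, hr0, hr0b⟩ := hsmall
  -- the target point
  set x : ℝ := (1 - δ) / c with hx
  have hx0 : 0 < x := div_pos (by linarith) hc
  have hx1 : x < 1 := by rw [hx, div_lt_one hc]; exact hδ0
  set T : ℝ := Real.pi / (2 * y0) * Real.arcsin x with hT
  have hTpos : 0 < T := mul_pos (by positivity) (Real.arcsin_pos.mpr hx0)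
  set W : ℝ := (Real.exp T - 1) / (Real.exp T + 1) with hW
  have hexp1 : 1 < Real.exp T := Real.one_lt_exp_iff.mpr hTpos
  have hW0 : 0 < W := div_pos (by linarith) (by linarith)
  have hW1 : W < 1 := by rw [hW, div_lt_one (by linarith)]; linarith
  have hWfrac : (1 + W) / (1 - W) = Real.exp T := by
    have h1 : 1 - W ≠ 0 := by linarith
    rw [div_eq_iff h1, hW]
    field_simp
    ring
  have hxiW : xi y0 (W : ℂ) = ((Real.pi / 2 - Real.arcsin x : ℝ) : ℂ) * I := by
    unfold xi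
    have : (1 + (W : ℂ)) / (1 - (W : ℂ)) = ((Real.exp T : ℝ) : ℂ) := by
      rw [← hWfrac]; push_cast; rfl
    rw [this, ← Complex.ofReal_log (Real.exp_pos _).le, Real.log_exp, hT]
    push_cast
    have hpi' : (Real.pi : ℂ) ≠ 0 := by exact_mod_cast hpi.ne'
    have hy' : (y0 : ℂ) ≠ 0 := by exact_mod_cast hy.ne'
    field_simp
  have hcosh : (c : ℂ) * Complex.cosh (xi y0 (W : ℂ)) = ((1 - δ : ℝ) : ℂ) := by
    rw [hxiW, Complex.cosh_mul_I, ← Complex.ofReal_cos, Real.cos_pi_div_two_sub,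
      Real.sin_arcsin (by linarith) hx1.le, ← Complex.ofReal_mul]
    congr 1
    rw [hx]
    field_simp
  -- radii
  set r1 : ℝ := min r0 (W / 2) with hr1
  have hr1pos : 0 < r1 := lt_min hr0 (by linarith)
  have hr1W : r1 < W := lt_of_le_of_lt (min_le_right _ _) (by linarith)
  set R : ℝ := (1 + W) / 2 with hR
  have hWR : W < R := by rw [hR]; linarith
  have hR1 : R < 1 := by rw [hR]; linarith
  set l : ℝ := Real.log r1 with hl
  set u : ℝ := Real.log R with hu
  have hlu : l < u := Real.log_lt_log hr1pos (hr1W.trans hWR)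
  set m : ℝ := Real.log W with hm
  have hlm : l < m := Real.log_lt_log hr1pos hr1W
  have hmu : m < u := Real.log_lt_log hW0 hWR
  set h : ℝ := 1 - (m - l) / (u - l) with hh
  have hfrac : (m - l) / (u - l) < 1 := by
    rw [div_lt_one (by linarith)]; linarith
  have hfrac0 : 0 < (m - l) / (u - l) := div_pos (by linarith) (by linarith)
  refine ⟨h, by linarith, by linarith, ?_⟩
  intro Q hQ M ε hM hb hsm
  have hstrip := strip_bound hc hy hQ hM hb
  -- the function on the strip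
  set G : ℂ → ℂ := fun ζ => Q (1 - c * Complex.cosh (xi y0 (Complex.exp ζ))) with hG
  have hnexp : ∀ ζ : ℂ, ζ.re ≤ u → ‖Complex.exp ζ‖ < 1 := by
    intro ζ hζ
    rw [Complex.norm_exp]
    calc Real.exp ζ.re ≤ Real.exp u := Real.exp_le_exp.mpr hζ
      _ = R := Real.exp_log (by linarith)
      _ < 1 := hR1
  have hGd : ∀ ζ : ℂ, ζ.re ≤ u → DifferentiableAt ℂ G ζ := by
    intro ζ hζ
    have h1 : DifferentiableAt ℂ (fun ζ => xi y0 (Complex.exp ζ)) ζ :=
      DifferentiableAt.comp (g := xi y0) ζ (xi_differentiableAt (hnexp ζ hζ))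
        Complex.differentiableAt_exp
    have h2 : DifferentiableAt ℂ (fun ζ => (1 : ℂ) - c * Complex.cosh (xi y0 (Complex.exp ζ))) ζ :=
      (differentiableAt_const _).sub ((differentiableAt_const _).mul h1.ccosh)
    exact DifferentiableAt.comp ζ (hQ _) h2
  have hGM : ∀ ζ : ℂ, ζ.re ≤ u → ‖G ζ‖ ≤ M := by
    intro ζ hζ
    exact hstrip _ (xi_re_le hy (hnexp ζ hζ))
  have hcl : DiffContOnCl ℂ G (HadamardThreeLines.verticalStrip l u) := by
    apply DifferentiableOn.diffContOnCl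
    intro ζ hζ
    apply (hGd ζ _).differentiableWithinAt
    have hsub : closure (HadamardThreeLines.verticalStrip l u) ⊆ Complex.re ⁻¹' (Set.Iic u) := by
      apply closure_minimal
      · intro z hz
        exact hz.2.le
      · exact isClosed_Iic.preimage Complex.continuous_re
    exact hsub hζ
  have hbdd : BddAbove ((norm ∘ G) '' HadamardThreeLines.verticalClosedStrip l u) := by
    refine ⟨M, ?_⟩
    rintro _ ⟨z, hz, rfl⟩
    exact hGM z hz.2
  have hleft : ∀ z ∈ Complex.re ⁻¹' {l}, ‖G z‖ ≤ ε := by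
    intro z hz
    have hz' : z.re = l := hz
    apply hsm
    have : (1 - (c : ℂ) * Complex.cosh (xi y0 (Complex.exp z))) - 1
        = -((c : ℂ) * Complex.cosh (xi y0 (Complex.exp z))) := by ring
    rw [this, norm_neg]
    apply hr0b
    rw [Complex.norm_exp, hz', hl, Real.exp_log hr1pos]
    exact min_le_left _ _
  have hright : ∀ z ∈ Complex.re ⁻¹' {u}, ‖G z‖ ≤ M := by
    intro z hz
    exact hGM z (le_of_eq hz)
  have hmem : (m : ℂ) ∈ HadamardThreeLines.verticalClosedStrip l u :=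
    ⟨by simpa using hlm.le, by simpa using hmu.le⟩
  have key := HadamardThreeLines.norm_le_interp_of_mem_verticalClosedStrip' hlu hmem
    hcl hbdd hleft hright
  have hGm : G (m : ℂ) = Q δ := by
    simp only [hG]
    congr 1
    have : Complex.exp (m : ℂ) = (W : ℂ) := by
      rw [← Complex.ofReal_exp, hm, Real.exp_log hW0]
    rw [this, hcosh]
    push_cast
    ring
  rw [hGm, Complex.ofReal_re] at key
  have h1h : 1 - h = (m - l) / (u - l) := by rw [hh]; ring
  rw [h1h]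
  exact key

/-- the binomial polynomial -/
noncomputable def bq (s : ℕ) (c : ℕ → ℝ) (z : ℂ) : ℂ :=
  ∑ r ∈ range (s + 1), (s.choose r : ℂ) * z ^ r * (1 - z) ^ (s - r) * (c r : ℂ)

lemma bq_differentiable (s : ℕ) (c : ℕ → ℝ) : Differentiable ℂ (bq s c) := by
  unfold bq
  fun_prop

/-- bound on the small disc around `1`. -/
lemma bq_disc {s : ℕ} {c : ℕ → ℝ} {M κ : ℝ} (hM : 0 ≤ M) (hκ : 0 < κ) (hκ1 : κ ≤ 1)
    (h1 : ∀ r ≤ s, |c r| ≤ M) (h2 : ∀ r ≤ s, s ≤ 4 * r → |c r| ≤ M * Real.exp (-κ * s))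
    (z : ℂ) (hz : ‖z - 1‖ ≤ (κ / 16) ^ 4) :
    ‖bq s c z‖ ≤ 2 * M * Real.exp (-κ * s / 2) := by
  set q : ℝ := κ / 16 with hq
  have hq0 : 0 < q := by positivity
  have hq1 : q ≤ 1 / 16 := by rw [hq]; linarith
  have hz' : ‖1 - z‖ ≤ q ^ 4 := by rwa [norm_sub_rev]
  have hz'' : ‖z‖ ≤ 1 + q ^ 4 := by
    calc ‖z‖ = ‖(z - 1) + 1‖ := by ring_nf
      _ ≤ ‖z - 1‖ + ‖(1 : ℂ)‖ := norm_add_le _ _
      _ ≤ q ^ 4 + 1 := by rw [norm_one]; linarith
      _ = 1 + q ^ 4 := by ring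
  have hterm : ∀ r ∈ range (s + 1), ‖(s.choose r : ℂ) * z ^ r * (1 - z) ^ (s - r) * (c r : ℂ)‖
      ≤ M * ((s.choose r : ℝ) * ((1 + q ^ 4) * q ^ 3) ^ s)
        + M * Real.exp (-κ * s) * ((1 + q ^ 4) ^ r * (q ^ 4) ^ (s - r) * (s.choose r : ℝ)) := by
    intro r hr
    have hrs : r ≤ s := by
      have := mem_range.mp hr
      omega
    rw [norm_mul, norm_mul, norm_mul, norm_pow, norm_pow, Complex.norm_natCast,
      Complex.norm_real, Real.norm_eq_abs]
    have hz1 : ‖z‖ ^ r ≤ (1 + q ^ 4) ^ r := pow_le_pow_left₀ (norm_nonneg _) hz'' r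
    have hz2 : ‖1 - z‖ ^ (s - r) ≤ (q ^ 4) ^ (s - r) :=
      pow_le_pow_left₀ (norm_nonneg _) hz' _
    have hA : (0 : ℝ) ≤ M * ((s.choose r : ℝ) * ((1 + q ^ 4) * q ^ 3) ^ s) := by positivity
    have hB : (0 : ℝ) ≤ M * Real.exp (-κ * s) *
        ((1 + q ^ 4) ^ r * (q ^ 4) ^ (s - r) * (s.choose r : ℝ)) := by positivity
    have hcommon : (s.choose r : ℝ) * ‖z‖ ^ r * ‖1 - z‖ ^ (s - r) ≤
        (s.choose r : ℝ) * (1 + q ^ 4) ^ r * (q ^ 4) ^ (s - r) := by
      gcongr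
    by_cases h4 : s ≤ 4 * r
    · have := h2 r hrs h4
      calc (s.choose r : ℝ) * ‖z‖ ^ r * ‖1 - z‖ ^ (s - r) * |c r|
          ≤ (s.choose r : ℝ) * (1 + q ^ 4) ^ r * (q ^ 4) ^ (s - r) * (M * Real.exp (-κ * s)) := by
            gcongr
        _ = M * Real.exp (-κ * s) *
            ((1 + q ^ 4) ^ r * (q ^ 4) ^ (s - r) * (s.choose r : ℝ)) := by ring
        _ ≤ _ := by linarith
    · have h3 : (1 + q ^ 4) ^ r ≤ (1 + q ^ 4) ^ s :=
        pow_le_pow_right₀ (by have := pow_pos hq0 4; linarith) hrs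
      have h5 : (q ^ 4) ^ (s - r) ≤ (q ^ 3) ^ s := by
        rw [← pow_mul, ← pow_mul]
        apply pow_le_pow_of_le_one hq0.le (by linarith)
        omega
      calc (s.choose r : ℝ) * ‖z‖ ^ r * ‖1 - z‖ ^ (s - r) * |c r|
          ≤ (s.choose r : ℝ) * (1 + q ^ 4) ^ r * (q ^ 4) ^ (s - r) * M := by
            gcongr
            exact h1 r hrs
        _ ≤ (s.choose r : ℝ) * (1 + q ^ 4) ^ s * (q ^ 3) ^ s * M := by gcongr
        _ = M * ((s.choose r : ℝ) * ((1 + q ^ 4) * q ^ 3) ^ s) := by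
            rw [mul_pow]; ring
        _ ≤ _ := by linarith
  have hsum1 : ∑ r ∈ range (s + 1), (s.choose r : ℝ) = 2 ^ s := by
    have := Nat.sum_range_choose s
    exact_mod_cast this
  have hsum2 : ∑ r ∈ range (s + 1), ((1 + q ^ 4) ^ r * (q ^ 4) ^ (s - r) * (s.choose r : ℝ))
      = (1 + q ^ 4 + q ^ 4) ^ s := by
    rw [add_pow]
  have hq4 : q ^ 4 ≤ κ / 4 := by
    calc q ^ 4 = q * q ^ 3 := by ring
      _ ≤ q * 1 := by
        gcongr
        exact pow_le_one₀ hq0.le (by linarith)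
      _ ≤ κ / 4 := by rw [hq]; linarith
  have hfin1 : 2 ^ s * ((1 + q ^ 4) * q ^ 3) ^ s ≤ Real.exp (-κ * s / 2) := by
    rw [← mul_pow]
    have e1 : 2 * ((1 + q ^ 4) * q ^ 3) ≤ Real.exp (-κ / 2) := by
      have hq3 : q ^ 3 ≤ (1 / 16) ^ 3 := pow_le_pow_left₀ hq0.le hq1 3
      have hq4' : q ^ 4 ≤ (1 / 16) ^ 4 := pow_le_pow_left₀ hq0.le hq1 4
      have e2 : 2 * ((1 + q ^ 4) * q ^ 3) ≤ 2 * ((1 + (1 / 16) ^ 4) * (1 / 16) ^ 3) := by gcongr
      have e3 : 1 - κ / 2 ≤ Real.exp (-κ / 2) := by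
        have := Real.add_one_le_exp (-κ / 2)
        linarith
      have e4 : (2 : ℝ) * ((1 + (1 / 16) ^ 4) * (1 / 16) ^ 3) ≤ 1 / 2 := by norm_num
      linarith
    calc (2 * ((1 + q ^ 4) * q ^ 3)) ^ s ≤ (Real.exp (-κ / 2)) ^ s :=
          pow_le_pow_left₀ (by positivity) e1 s
      _ = Real.exp (-κ * s / 2) := by
          rw [← Real.exp_nat_mul]
          congr 1
          ring
  have hfin2 : Real.exp (-κ * s) * (1 + q ^ 4 + q ^ 4) ^ s ≤ Real.exp (-κ * s / 2) := by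
    have e1 : 1 + q ^ 4 + q ^ 4 ≤ Real.exp (κ / 2) := by
      have := Real.add_one_le_exp (κ / 2)
      linarith
    calc Real.exp (-κ * s) * (1 + q ^ 4 + q ^ 4) ^ s
        ≤ Real.exp (-κ * s) * (Real.exp (κ / 2)) ^ s := by
          gcongr
      _ = Real.exp (-κ * s / 2) := by
          rw [← Real.exp_nat_mul, ← Real.exp_add]
          congr 1
          ring
  calc ‖bq s c z‖ ≤ ∑ r ∈ range (s + 1),
        ‖(s.choose r : ℂ) * z ^ r * (1 - z) ^ (s - r) * (c r : ℂ)‖ := norm_sum_le _ _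
    _ ≤ ∑ r ∈ range (s + 1), (M * ((s.choose r : ℝ) * ((1 + q ^ 4) * q ^ 3) ^ s)
        + M * Real.exp (-κ * s) * ((1 + q ^ 4) ^ r * (q ^ 4) ^ (s - r) * (s.choose r : ℝ))) :=
        sum_le_sum hterm
    _ = M * (2 ^ s * ((1 + q ^ 4) * q ^ 3) ^ s)
        + M * (Real.exp (-κ * s) * (1 + q ^ 4 + q ^ 4) ^ s) := by
        rw [sum_add_distrib, ← mul_sum, ← mul_sum, ← sum_mul, hsum1, hsum2]
        ring
    _ ≤ M * Real.exp (-κ * s / 2) + M * Real.exp (-κ * s / 2) := by gcongr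
    _ = 2 * M * Real.exp (-κ * s / 2) := by ring

lemma exists_ellipse {p δ : ℝ} (hp2 : p ≠ 2) (hδ : 0 < δ) :
    ∃ y0 : ℝ, 0 < y0 ∧ ∃ c : ℝ, 0 < c ∧ 1 - δ < c ∧
      ∀ φ : ℝ, ∃ w : ℂ, ‖w‖ ≤ 1 ∧ zz p w = 1 - c * Complex.cosh ((y0 : ℂ) + φ * I) := by
  have hcont : Filter.Tendsto (fun y : ℝ => 1 / Real.cosh (p * y / (2 - p)))
      (nhdsWithin 0 (Set.Ioi 0)) (nhds 1) := by
    have h1 : Continuous (fun y : ℝ => 1 / Real.cosh (p * y / (2 - p))) := by
      apply Continuous.div continuous_const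
      · exact Real.continuous_cosh.comp (by fun_prop)
      · intro y
        exact (Real.cosh_pos _).ne'
    have h2 := h1.tendsto 0
    simp only [mul_zero, zero_div, Real.cosh_zero, div_one] at h2
    exact h2.mono_left nhdsWithin_le_nhds
  have hev := hcont.eventually (lt_mem_nhds (show 1 - δ < 1 by linarith))
  have hev2 : ∀ᶠ y in nhdsWithin (0 : ℝ) (Set.Ioi 0), 0 < y := self_mem_nhdsWithin
  obtain ⟨y0, hy1, hy0⟩ := (hev.and hev2).exists
  refine ⟨y0, hy0, 1 / Real.cosh (p * y0 / (2 - p)), by positivity, hy1, fun φ => ?_⟩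
  rcases lt_or_gt_of_ne hp2 with hlt | hgt
  · refine ⟨_, ?_, (zz_curve hp2 (-y0) (-φ)).trans ?_⟩
    · rw [Complex.norm_exp]
      apply Real.exp_le_one_iff.mpr
      have : 2 * (-y0) / (2 - p) ≤ 0 :=
        div_nonpos_of_nonpos_of_nonneg (by linarith) (by linarith)
      rw [Complex.add_re, Complex.ofReal_re, Complex.re_ofReal_mul, Complex.I_re, mul_zero,
        add_zero]
      exact this
    · have e1 : ((-y0 : ℝ) : ℂ) + ((-φ : ℝ) : ℂ) * I = -((y0 : ℂ) + φ * I) := by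
        push_cast
        ring
      have e2 : ((p * (-y0) / (2 - p) : ℝ) : ℂ) = -((p * y0 / (2 - p) : ℝ) : ℂ) := by
        push_cast
        ring
      rw [e1, e2, Complex.cosh_neg, Complex.cosh_neg]
      push_cast
      ring
  · refine ⟨_, ?_, (zz_curve hp2 y0 φ).trans ?_⟩
    · rw [Complex.norm_exp]
      apply Real.exp_le_one_iff.mpr
      have : 2 * y0 / (2 - p) ≤ 0 :=
        div_nonpos_of_nonneg_of_nonpos (by linarith) (by linarith)
      rw [Complex.add_re, Complex.ofReal_re, Complex.re_ofReal_mul, Complex.I_re, mul_zero,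
        add_zero]
      exact this
    · push_cast
      ring

/-- one step of the chain -/
theorem one_step {p δ κ : ℝ} (hp2 : p ≠ 2) (hδ : 0 < δ) (hδ1 : δ < 1) (hκ : 0 < κ) :
    ∃ κ' > 0, ∃ s0 : ℕ, ∀ s ≥ s0, ∀ (M : ℝ) (c : ℕ → ℝ), 0 ≤ M →
      (∀ w : ℂ, ‖w‖ ≤ 1 → ‖bq s c (zz p w)‖ ≤ M) → (∀ r ≤ s, |c r| ≤ M) →
      (∀ r ≤ s, s ≤ 4 * r → |c r| ≤ M * Real.exp (-κ * s)) →
      ‖bq s c (δ : ℂ)‖ ≤ M * Real.exp (-κ' * s) := by
  wlog hκ1 : κ ≤ 1 generalizing κ with H
  · obtain ⟨κ', hκ', s0, hs0⟩ := H one_pos le_rfl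
    refine ⟨κ', hκ', s0, fun s hs M c hM h1 h2 h3 => hs0 s hs M c hM h1 h2 ?_⟩
    intro r hr hr4
    refine (h3 r hr hr4).trans ?_
    have : (0 : ℝ) ≤ (s : ℝ) := Nat.cast_nonneg s
    gcongr
    linarith
  obtain ⟨y0, hy0, c0, hc0, hc1, hcurve⟩ := exists_ellipse hp2 hδ
  obtain ⟨h, hh0, hh1, htc⟩ := two_const hc0 hy0 hc1 hδ1 (pow_pos (show 0 < κ / 16 by positivity) 4)
  refine ⟨κ * h / 4, by positivity, ⌈4 / (κ * h)⌉₊, ?_⟩
  intro s hs M c hM hb h1 h2
  rcases hM.eq_or_lt with hM0 | hMpos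
  · have hc : ∀ r ≤ s, c r = 0 := by
      intro r hr
      have := h1 r hr
      rw [← hM0] at this
      exact abs_eq_zero.mp (le_antisymm this (abs_nonneg _))
    have : bq s c (δ : ℂ) = 0 := by
      unfold bq
      apply sum_eq_zero
      intro r hr
      have hrs : r ≤ s := by
        have := mem_range.mp hr
        omega
      rw [hc r hrs]
      simp
    rw [this, ← hM0]
    simp
  · have key := htc (bq s c) (bq_differentiable s c) M (2 * M * Real.exp (-κ * s / 2)) hMpos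
      (by
        intro φ
        obtain ⟨w, hw1, hw⟩ := hcurve φ
        rw [← hw]
        exact hb w hw1)
      (bq_disc hM hκ hκ1 h1 h2)
    refine key.trans ?_
    have e1 : (2 * M * Real.exp (-κ * s / 2)) ^ h * M ^ (1 - h)
        = M * (2 ^ h * Real.exp (-κ * s / 2 * h)) := by
      rw [Real.mul_rpow (by positivity) (Real.exp_pos _).le, Real.mul_rpow (by norm_num) hM,
        ← Real.exp_mul]
      have : M ^ h * M ^ (1 - h) = M := by
        rw [← Real.rpow_add hMpos]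
        simp
      calc 2 ^ h * M ^ h * Real.exp (-κ * s / 2 * h) * M ^ (1 - h)
          = (M ^ h * M ^ (1 - h)) * (2 ^ h * Real.exp (-κ * s / 2 * h)) := by ring
        _ = _ := by rw [this]
    rw [e1]
    gcongr
    have e2 : (2 : ℝ) ^ h ≤ 2 := by
      calc (2 : ℝ) ^ h ≤ 2 ^ (1 : ℝ) := Real.rpow_le_rpow_of_exponent_le (by norm_num) hh1
        _ = 2 := Real.rpow_one 2
    have e3 : (2 : ℝ) ≤ Real.exp (κ * h / 4 * s) := by
      have : 4 / (κ * h) ≤ s := (Nat.le_ceil _).trans (by exact_mod_cast hs)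
      rw [div_le_iff₀ (by positivity)] at this
      have h5 : 1 ≤ κ * h / 4 * s := by linarith
      have := Real.add_one_le_exp (κ * h / 4 * s)
      linarith
    calc (2 : ℝ) ^ h * Real.exp (-κ * s / 2 * h)
        ≤ Real.exp (κ * h / 4 * s) * Real.exp (-κ * s / 2 * h) := by
          gcongr
          exact e2.trans e3
      _ = Real.exp (-(κ * h / 4) * s) := by
          rw [← Real.exp_add]
          congr 1
          ring

/-- binomial smoothing. -/
noncomputable def sm (δ : ℝ) (s : ℕ) (u : ℕ → ℝ) (t : ℕ) : ℝ :=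
  ∑ r ∈ range (s + 1), (s.choose r : ℝ) * δ ^ r * (1 - δ) ^ (s - r) * u (t + r)

/-- the shift -/
noncomputable def shiftE : Module.End ℝ (ℕ → ℝ) := LinearMap.funLeft ℝ ℝ Nat.succ

lemma shiftE_pow (r : ℕ) (u : ℕ → ℝ) (t : ℕ) : (shiftE ^ r) u t = u (t + r) := by
  induction r generalizing t with
  | zero => simp
  | succ r ih =>
    rw [pow_succ', Module.End.mul_apply]
    change (LinearMap.funLeft ℝ ℝ Nat.succ) ((shiftE ^ r) u) t = _
    rw [LinearMap.funLeft_apply, ih]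
    congr 1
    simp only [Nat.succ_eq_add_one]
    ring

lemma sm_eq (δ : ℝ) (s : ℕ) (u : ℕ → ℝ) :
    ((δ • shiftE + (1 - δ) • (1 : Module.End ℝ (ℕ → ℝ))) ^ s) u = sm δ s u := by
  have hcomm : Commute (δ • shiftE) ((1 - δ) • (1 : Module.End ℝ (ℕ → ℝ))) :=
    ((Commute.one_right shiftE).smul_left δ).smul_right (1 - δ)
  rw [hcomm.add_pow]
  funext t
  rw [LinearMap.sum_apply, Finset.sum_apply]
  unfold sm
  apply sum_congr rfl
  intro r _
  rw [smul_pow, smul_pow, one_pow, Module.End.mul_apply, Module.End.mul_apply]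
  have h1 : ((s.choose r : Module.End ℝ (ℕ → ℝ))) u = (s.choose r : ℝ) • u := by
    rw [Module.End.natCast_apply]
    exact (Nat.cast_smul_eq_nsmul ℝ _ _).symm
  rw [h1]
  simp only [LinearMap.smul_apply, map_smul, Pi.smul_apply, smul_eq_mul, Module.End.one_apply,
    shiftE_pow]
  ring

lemma sm_iterate (δ : ℝ) (s i : ℕ) (u : ℕ → ℝ) : (sm δ s)^[i] u = sm δ (i * s) u := by
  induction i with
  | zero =>
    funext t
    simp [sm]
  | succ i ih =>
    rw [Function.iterate_succ_apply', ih, ← sm_eq, ← sm_eq, ← sm_eq, ← Module.End.mul_apply,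
      ← pow_add]
    congr 3
    ring

lemma sum_weights (δ : ℝ) (s : ℕ) :
    ∑ r ∈ range (s + 1), (s.choose r : ℝ) * δ ^ r * (1 - δ) ^ (s - r) = 1 := by
  have := add_pow δ (1 - δ) s
  rw [add_sub_cancel, one_pow] at this
  refine Eq.trans ?_ this.symm
  apply sum_congr rfl
  intro r _
  ring

lemma abs_sm_le {δ : ℝ} (h0 : 0 ≤ δ) (h1 : δ ≤ 1) {s : ℕ} {u : ℕ → ℝ} {t : ℕ} {M : ℝ}
    (h : ∀ r ≤ s, |u (t + r)| ≤ M) : |sm δ s u t| ≤ M := by
  unfold sm
  have h1' : 0 ≤ 1 - δ := by linarith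
  calc |∑ r ∈ range (s + 1), (s.choose r : ℝ) * δ ^ r * (1 - δ) ^ (s - r) * u (t + r)|
      ≤ ∑ r ∈ range (s + 1), |(s.choose r : ℝ) * δ ^ r * (1 - δ) ^ (s - r) * u (t + r)| :=
        abs_sum_le_sum_abs _ _
    _ ≤ ∑ r ∈ range (s + 1), (s.choose r : ℝ) * δ ^ r * (1 - δ) ^ (s - r) * M := by
        apply sum_le_sum
        intro r hr
        have hrs : r ≤ s := by
          have := mem_range.mp hr
          omega
        have hw : (0 : ℝ) ≤ (s.choose r : ℝ) * δ ^ r * (1 - δ) ^ (s - r) := by positivity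
        rw [abs_mul, abs_of_nonneg hw]
        gcongr
        exact h r hrs
    _ = M := by rw [← sum_mul, sum_weights, one_mul]

lemma bq_sm (δ : ℝ) (s : ℕ) (v : ℕ → ℝ) (t : ℕ) (z : ℂ) :
    bq s (fun r => sm δ s v (t + r)) z =
      ∑ r' ∈ range (s + 1), (((s.choose r' : ℝ) * δ ^ r' * (1 - δ) ^ (s - r') : ℝ) : ℂ) *
        bq s (fun r => v (t + r' + r)) z := by
  unfold bq sm
  simp only [Complex.ofReal_sum, mul_sum]
  rw [sum_comm]
  apply sum_congr rfl
  intro r' _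
  apply sum_congr rfl
  intro r _
  rw [show t + r + r' = t + r' + r by ring]
  push_cast
  ring

lemma norm_bq_sm_le {δ : ℝ} (h0 : 0 ≤ δ) (h1 : δ ≤ 1) {s : ℕ} {v : ℕ → ℝ} {t : ℕ} {z : ℂ} {M : ℝ}
    (h : ∀ r' ≤ s, ‖bq s (fun r => v (t + r' + r)) z‖ ≤ M) :
    ‖bq s (fun r => sm δ s v (t + r)) z‖ ≤ M := by
  rw [bq_sm]
  have h1' : 0 ≤ 1 - δ := by linarith
  calc ‖∑ r' ∈ range (s + 1), (((s.choose r' : ℝ) * δ ^ r' * (1 - δ) ^ (s - r') : ℝ) : ℂ) *
        bq s (fun r => v (t + r' + r)) z‖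
      ≤ ∑ r' ∈ range (s + 1), ‖(((s.choose r' : ℝ) * δ ^ r' * (1 - δ) ^ (s - r') : ℝ) : ℂ) *
        bq s (fun r => v (t + r' + r)) z‖ := norm_sum_le _ _
    _ ≤ ∑ r' ∈ range (s + 1), (s.choose r' : ℝ) * δ ^ r' * (1 - δ) ^ (s - r') * M := by
        apply sum_le_sum
        intro r hr
        have hrs : r ≤ s := by
          have := mem_range.mp hr
          omega
        have hw : (0 : ℝ) ≤ (s.choose r : ℝ) * δ ^ r * (1 - δ) ^ (s - r) := by positivity
        rw [norm_mul, Complex.norm_real, Real.norm_eq_abs, abs_of_nonneg hw]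
        gcongr
        exact h r hrs
    _ = M := by rw [← sum_mul, sum_weights, one_mul]

lemma bq_ofReal (δ : ℝ) (s : ℕ) (v : ℕ → ℝ) (t : ℕ) :
    bq s (fun r => v (t + r)) (δ : ℂ) = ((sm δ s v t : ℝ) : ℂ) := by
  unfold bq sm
  push_cast
  rfl

lemma bq_zero (s : ℕ) (c : ℕ → ℝ) : bq s c 0 = c 0 := by
  unfold bq
  rw [sum_eq_single 0]
  · simp
  · intro r _ hr
    simp [hr]
  · simp

lemma zz_one (p : ℝ) : zz p 1 = 0 := by
  unfold zz
  simp

/-- **The chain lemma** (P249). -/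
theorem chain {p : ℝ} (hp : 1 < p) (hp2 : p ≠ 2) (A J : ℕ) (hJ : 8 * A + 8 ≤ J) :
    ∃ b > 0, ∃ s0 : ℕ, ∀ s ≥ s0, ∀ (M : ℝ) (u : ℕ → ℝ), 0 ≤ M →
      (∀ t, t + s ≤ J * s → ∀ w : ℂ, ‖w‖ ≤ 1 →
        ‖∑ r ∈ range (s + 1), (s.choose r : ℂ) * (zz p w) ^ r * (1 - zz p w) ^ (s - r)
          * (u (t + r) : ℂ)‖ ≤ M) →
      (∀ n, A * s ≤ n → n ≤ J * s → |u n| ≤ M * 2 ^ (-((n : ℝ) - A * s) / p)) →
      |∑ r ∈ range (J * s + 1), ((J * s).choose r : ℝ) * (1 / (2 * J)) ^ r
        * (1 - 1 / (2 * J)) ^ (J * s - r) * u r| ≤ M * Real.exp (-b * s) := by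
  have hJpos : (0 : ℝ) < J := by
    have : 0 < J := by omega
    exact_mod_cast this
  have hJ1 : (1 : ℝ) ≤ J := by
    have : 1 ≤ J := by omega
    exact_mod_cast this
  set δ : ℝ := 1 / (2 * J) with hδdef
  have hδ : 0 < δ := by positivity
  have hδ1 : δ < 1 := by
    rw [hδdef, div_lt_one (by positivity)]
    linarith
  have main : ∀ i : ℕ, i ≤ J → ∃ κ > 0, ∃ s0 : ℕ, ∀ s ≥ s0, ∀ (M : ℝ) (u : ℕ → ℝ), 0 ≤ M →
      (∀ t, t + s ≤ J * s → ∀ w : ℂ, ‖w‖ ≤ 1 →
        ‖bq s (fun r => u (t + r)) (zz p w)‖ ≤ M) →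
      (∀ n, A * s ≤ n → n ≤ J * s → |u n| ≤ M * 2 ^ (-((n : ℝ) - A * s) / p)) →
      (∀ t, t + (i + 1) * s ≤ J * s → ∀ w : ℂ, ‖w‖ ≤ 1 →
        ‖bq s (fun r => (sm δ s)^[i] u (t + r)) (zz p w)‖ ≤ M) ∧
      (∀ t, t + i * s ≤ J * s → |(sm δ s)^[i] u t| ≤ M) ∧
      (∀ t, t + i * s ≤ J * s → (4 * A + 4) * s ≤ 4 * t + i * s →
        |(sm δ s)^[i] u t| ≤ M * Real.exp (-κ * s)) := by
    intro i
    induction i with
    | zero =>
      intro _
      refine ⟨Real.log 2 / p, div_pos (Real.log_pos (by norm_num)) (by linarith), 0, ?_⟩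
      intro s _ M u hM hb hf
      simp only [Function.iterate_zero, id_eq, zero_mul, add_zero, zero_add, one_mul]
      refine ⟨hb, ?_, ?_⟩
      · intro t ht
        by_cases hts : t + s ≤ J * s
        · have := hb t hts 1 (by simp)
          rw [zz_one, bq_zero, Complex.norm_real, Real.norm_eq_abs] at this
          simpa using this
        · have hAt : A * s ≤ t := by
            have h1 : (A + 1) * s ≤ J * s := Nat.mul_le_mul_right s (by omega)
            have h2 : (A + 1) * s = A * s + s := by ring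
            omega
          refine (hf t hAt ht).trans ?_
          have h3 : (2 : ℝ) ^ (-((t : ℝ) - A * s) / p) ≤ 1 := by
            apply Real.rpow_le_one_of_one_le_of_nonpos (by norm_num)
            apply div_nonpos_of_nonpos_of_nonneg _ (by linarith)
            have : ((A * s : ℕ) : ℝ) ≤ (t : ℝ) := by exact_mod_cast hAt
            push_cast at this
            linarith
          calc M * (2 : ℝ) ^ (-((t : ℝ) - A * s) / p) ≤ M * 1 := by gcongr
            _ = M := mul_one M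
      · intro t ht h4
        have hAt : (A + 1) * s ≤ t := by
          have : (4 * A + 4) * s = 4 * ((A + 1) * s) := by ring
          omega
        have hAt' : A * s ≤ t := le_trans (Nat.mul_le_mul_right s (by omega)) hAt
        refine (hf t hAt' ht).trans ?_
        gcongr
        have hcast : ((A : ℝ) + 1) * s ≤ (t : ℝ) := by exact_mod_cast hAt
        rw [← Real.exp_log (show (0 : ℝ) < 2 by norm_num), ← Real.exp_mul, Real.log_exp]
        apply Real.exp_le_exp.mpr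
        have hp0 : 0 < p := by linarith
        have hl2 : 0 < Real.log 2 := Real.log_pos (by norm_num)
        have e1 : Real.log 2 * (-((t : ℝ) - A * s) / p) = -(Real.log 2 / p) * ((t : ℝ) - A * s) := by
          ring
        rw [e1]
        have h5 : (s : ℝ) ≤ (t : ℝ) - A * s := by linarith
        have h6 : 0 < Real.log 2 / p := by positivity
        nlinarith
    | succ i ih =>
      intro hi
      obtain ⟨κ, hκ, s1, hs1⟩ := ih (by omega)
      obtain ⟨κ', hκ', s2, hs2⟩ := one_step (p := p) (δ := δ) (κ := κ) hp2 hδ hδ1 hκ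
      refine ⟨κ', hκ', max s1 s2, ?_⟩
      intro s hs M u hM hb hf
      obtain ⟨ha, hbb, hc⟩ := hs1 s (le_trans (le_max_left _ _) hs) M u hM hb hf
      have hs2' := hs2 s (le_trans (le_max_right _ _) hs)
      rw [Function.iterate_succ_apply']
      set v := (sm δ s)^[i] u with hv
      refine ⟨?_, ?_, ?_⟩
      · intro t ht w hw
        apply norm_bq_sm_le hδ.le hδ1.le
        intro r' hr'
        refine ha (t + r') ?_ w hw
        have : (i + 1 + 1) * s = (i + 1) * s + s := by ring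
        omega
      · intro t ht
        apply abs_sm_le hδ.le hδ1.le
        intro r hr
        apply hbb
        have : (i + 1) * s = i * s + s := by ring
        omega
      · intro t ht h4
        have hexp : (i + 1) * s = i * s + s := by ring
        have := hs2' M (fun r => v (t + r)) hM (fun w hw => ha t (by omega) w hw)
          (fun r hr => hbb (t + r) (by omega))
          (fun r hr hr4 => hc (t + r) (by omega) (by omega))
        rw [bq_ofReal, Complex.norm_real, Real.norm_eq_abs] at this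
        exact this
  obtain ⟨κ, hκ, s0, hs0⟩ := main J le_rfl
  refine ⟨κ, hκ, s0, ?_⟩
  intro s hs M u hM hb hf
  obtain ⟨_, _, hc⟩ := hs0 s hs M u hM hb hf
  have := hc 0 (by simp) (by
    have : (4 * A + 4) * s ≤ J * s := Nat.mul_le_mul_right s (by omega)
    omega)
  rw [sm_iterate] at this
  unfold sm at this
  simpa using this

end P249H982
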